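import Crest.Agent.X262.G4.Defs
import Crest.Agent.X262.StAmp.Main
import Crest.Agent.X262.Fano21.Lin

/-!
# Row 262, G4 (helper99): the small statements of `G4/Defs`

* `ampStmt : G4.AmpStmt`, `genStmt : G4.GenStmt`, `nrmStmt : G4.NrmStmt`.
-/

set_option autoImplicit false

noncomputable section

namespace Crest.Agent.X262.G4m

open Crest.Agent.X277 Crest.Agent.X277.Lef Crest.Agent.X277.AN.G1 Crest.Agent.X277.BD
open Crest.Agent.X277.BD.Br

theorem ampStmt : G4.AmpStmt := by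
  intro F L _ _ _ _ _ B
  have hd : dim ℂ F = 2 := by
    change Module.finrank F _ = 2
    rw [Module.finrank_eq_card_basis B.b, Fintype.card_fin]
  have hf : Free (pb B.Λ.ι B.LL + pb (G4.ι₂ B.Λ) B.LL -
      B.m • St91.dgl B.Λ.ι (G4.ι₂ B.Λ) B.S.P.y) :=
    Lin.free (Lin.symm ⟨B.u, B.u_ne, B.plk⟩) (free_mxf B.Λ.plk)
  have h1 : StAmp.Sep B.S.P B.LL := fun x x' u u' c hu hu' hc =>
    StAmp.sep B.pf B.m_pos hf hu hu' hc
  exact ⟨h1.free (by omega) B.LL_on,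
    StAmp.ampStmt F L B.S.P _ _ hd B.pf B.LL B.LL_on B.m B.m_pos hf⟩

theorem genStmt : G4.GenStmt := fun _ _ _ _ _ _ _ Λ hG => Fano21.genPt Λ hG

theorem nrmStmt : G4.NrmStmt := fun _ _ _ _ _ _ _ Λ hG ha k s h1 h2 =>
  Fano21.nrmSec Λ hG ha k s h1 h2

end Crest.Agent.X262.G4m
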